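import Mathlib

/-! # Track H: the generic record of the Carnot cells (two abstract contact functions)

`Q` = points (hermitian projections of rank one), `P` = lines, `B x z` = contact function of a point
and a line, `K x x'` = contact function of two points. One cell system at level `N`, `C` independent
of `N`. Definitions only. -/

namespace Vale.Agent.P092.H283.Gn

open Matrix

variable {n : ℕ} {X Z : Type*} [TopologicalSpace X] [TopologicalSpace Z]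

/-- the cells at level `N` -/
structure CG (Q : C(X, Matrix (Fin n) (Fin n) ℂ)) (P : C(Z, Matrix (Fin n) (Fin n) ℂ))
    (B : X → Z → ℝ) (K : X → X → ℝ) (C : ℝ) (N : ℕ) where
  ι : Type
  s : Finset ι
  φ : ι → C(X, ℝ)
  xa : ι → X
  ψ : ι → C(Z, ℝ)
  φ0 : ∀ α x, 0 ≤ φ α x
  φs : ∀ x, ∑ α ∈ s, φ α x = 1
  ψ0 : ∀ α z, 0 ≤ ψ α z
  ψ1 : ∀ α z, ψ α z ≤ 1
  /-- (3) -/
  kill : ∀ α ∈ s, ∀ x ∈ tsupport (φ α), ∀ z ∈ tsupport (fun z => 1 - ψ α z), P z * Q x ≠ Q x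
  /-- (4) -/
  nn : ∀ α ∈ s, ∀ z, ψ α z ≠ 0 → ∀ i j, ‖((1 - P z) * Q (xa α)) i j‖ ≤ C / N
  bb : ∀ α ∈ s, ∀ z, ψ α z ≠ 0 → B (xa α) z ≤ C / N ^ 2
  /-- (5) -/
  cl : ∀ α ∈ s, ∀ x, φ α x ≠ 0 → ∀ i j, ‖Q x i j - Q (xa α) i j‖ ≤ C / N
  /-- (5') -/
  cb : ∀ α ∈ s, ∀ x, φ α x ≠ 0 → K x (xa α) ≤ C / N ^ 2
  /-- (6) -/
  cnt : ∀ z, ∀ t ⊆ s, (∀ β ∈ t, ψ β z ≠ 0) → (t.card : ℝ) ≤ C * N ^ 2
  /-- (7) -/
  loc : ∀ z, ∀ α ∈ s, ψ α z ≠ 0 → ∀ δ : ℝ, 1 / (N : ℝ) ≤ δ → δ ≤ 1 → ∀ t ⊆ s,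
    (∀ β ∈ t, ψ β z ≠ 0 ∧ ∀ i j, ‖Q (xa β) i j - Q (xa α) i j‖ ≤ δ) →
      (t.card : ℝ) ≤ C * (δ * N) ^ 2

/-- **the statement of the cells** -/
def CellsG (Q : C(X, Matrix (Fin n) (Fin n) ℂ)) (P : C(Z, Matrix (Fin n) (Fin n) ℂ))
    (B : X → Z → ℝ) (K : X → X → ℝ) : Prop :=
  ∃ C : ℝ, 0 < C ∧ ∃ N₀ : ℕ, ∀ N : ℕ, N₀ ≤ N → Nonempty (CG Q P B K C N)

/-- the contact function of a point and a line for a hermitian (sesquilinear) form `J` -/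
noncomputable def Bh (v : X → Fin n → ℂ) (P : C(Z, Matrix (Fin n) (Fin n) ℂ))
    (J : Matrix (Fin n) (Fin n) ℂ) (x : X) (z : Z) : ℝ :=
  ‖star (P z *ᵥ v x) ⬝ᵥ (J *ᵥ v x)‖

/-- the contact function of two points for a hermitian (sesquilinear) form `J` -/
noncomputable def Kh (v : X → Fin n → ℂ) (J : Matrix (Fin n) (Fin n) ℂ) (x x' : X) : ℝ :=
  ‖star (v x) ⬝ᵥ (J *ᵥ v x')‖

/-- `H(x,z)` has order `e`: on every cell of every level it is a sum of a fixed number `d` of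
products `h(x) k(z)` with `|h| ≤ b / N ^ e` on the cell and `|k| ≤ b` on the cut-off. -/
def Ord (Q : C(X, Matrix (Fin n) (Fin n) ℂ)) (P : C(Z, Matrix (Fin n) (Fin n) ℂ))
    (B : X → Z → ℝ) (K : X → X → ℝ) (C : ℝ) (e : ℕ) (H : X → Z → ℂ) : Prop :=
  ∃ (d : ℕ) (b : ℝ), 0 ≤ b ∧ ∀ N : ℕ, 1 ≤ N → ∀ D : CG Q P B K C N, ∀ α ∈ D.s,
    ∃ (h : Fin d → C(X, ℂ)) (k : Fin d → C(Z, ℂ)),
      (∀ x z, H x z = ∑ j, h j x * k j z) ∧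
      (∀ j x, D.φ α x ≠ 0 → ‖h j x‖ ≤ b / N ^ e) ∧ (∀ j z, D.ψ α z ≠ 0 → ‖k j z‖ ≤ b)

end Vale.Agent.P092.H283.Gn
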