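import Vale.Agent.P092.H283.Gn.O
import Vale.Agent.P092.H283.Car4

/-! # Track H, cells: first order entries, hermitian contact entries -/

set_option linter.unusedSectionVars false

namespace Vale.Agent.P092.H283.Gn

open Matrix Finset Vale.Agent.P092.H283.Syn
open Vale.Agent.P092.H283.Car (en en_apply unit_le mat_vmv)

variable {n : ℕ} {X Z : Type*} [TopologicalSpace X] [CompactSpace X] [TopologicalSpace Z]
  [CompactSpace Z]
  {Q : C(X, Matrix (Fin n) (Fin n) ℂ)}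
  {P : C(Z, Matrix (Fin n) (Fin n) ℂ)} {Bc : X → Z → ℝ} {Kc : X → X → ℝ} {C : ℝ}

/-! ### functions of one variable -/

theorem OrdA.ofX {a : ∀ N : ℕ, ∀ D : CG Q P Bc Kc C N, D.ι → C(X, ℂ)} {e : ℕ} (B : ℝ) (hB : 0 ≤ B)
    (h : ∀ N : ℕ, 1 ≤ N → ∀ D : CG Q P Bc Kc C N, ∀ α ∈ D.s, ∀ x, D.φ α x ≠ 0 →
      ‖a N D α x‖ ≤ B / N ^ e) :
    OrdA (Q := Q) (P := P) (Bc := Bc) (Kc := Kc) (C := C) e (fun N D α x _ => a N D α x) := by
  refine OrdA.of Unit (B + 1) (by positivity) fun N hN D α hα =>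
    ⟨fun _ => a N D α, fun _ => 1, fun x z => by simp, fun _ x hx => ?_, fun _ z _ => ?_⟩
  · exact (h N hN D α hα x hx).trans
      (div_le_div_of_nonneg_right (by linarith) (OrdA.pw hN e).le)
  · simp only [ContinuousMap.one_apply, norm_one]
    linarith

theorem OrdA.ofZ {b : ∀ N : ℕ, ∀ D : CG Q P Bc Kc C N, D.ι → C(Z, ℂ)} {e : ℕ} (B : ℝ) (hB : 0 ≤ B)
    (h : ∀ N : ℕ, 1 ≤ N → ∀ D : CG Q P Bc Kc C N, ∀ α ∈ D.s, ∀ z, D.ψ α z ≠ 0 →
      ‖b N D α z‖ ≤ B / N ^ e) :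
    OrdA (Q := Q) (P := P) (Bc := Bc) (Kc := Kc) (C := C) e (fun N D α _ z => b N D α z) := by
  refine OrdA.of Unit (B + 1) (by positivity) fun N hN D α hα =>
    ⟨fun _ => ContinuousMap.const X ((((N : ℝ) ^ e)⁻¹ : ℝ) : ℂ),
      fun _ => (((N : ℝ) ^ e : ℝ) : ℂ) • b N D α, fun x z => ?_, fun _ x _ => ?_, fun _ z hz => ?_⟩
  · have hp := OrdA.pw hN e
    simp only [Finset.univ_unique, Finset.sum_singleton, ContinuousMap.const_apply,
      ContinuousMap.smul_apply, smul_eq_mul]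
    rw [← mul_assoc, ← Complex.ofReal_mul, inv_mul_cancel₀ hp.ne']
    simp
  · have hp := OrdA.pw hN e
    simp only [ContinuousMap.const_apply, Complex.norm_real, Real.norm_eq_abs]
    rw [abs_of_pos (inv_pos.mpr hp), inv_eq_one_div]
    exact div_le_div_of_nonneg_right (by linarith) hp.le
  · have hp := OrdA.pw hN e
    have h1 := h N hN D α hα z hz
    rw [le_div_iff₀ hp] at h1
    simp only [ContinuousMap.smul_apply, smul_eq_mul, norm_mul, Complex.norm_real,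
      Real.norm_eq_abs]
    rw [abs_of_pos hp, mul_comm]
    linarith

theorem ord_x (a : C(X, ℂ)) : Ord Q P Bc Kc C 0 (fun x _ => a x) :=
  OrdA.ofX (a := fun _ _ _ => a) ‖a‖ (norm_nonneg _) fun N _ D α _ x _ => by
    rw [pow_zero, div_one]
    exact ContinuousMap.norm_coe_le_norm a x

theorem ord_z (b : C(Z, ℂ)) : Ord Q P Bc Kc C 0 (fun _ z => b z) :=
  OrdA.ofZ (b := fun _ _ _ => b) ‖b‖ (norm_nonneg _) fun N _ D α _ z _ => by
    rw [pow_zero, div_one]
    exact ContinuousMap.norm_coe_le_norm b z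

/-! ### matrices -/

/-- matrix valued functions that depend on the cell -/
abbrev MFam (Q : C(X, Matrix (Fin n) (Fin n) ℂ))
    (P : C(Z, Matrix (Fin n) (Fin n) ℂ)) (Bc : X → Z → ℝ) (Kc : X → X → ℝ) (C : ℝ) :=
  ∀ N : ℕ, ∀ D : CG Q P Bc Kc C N, D.ι → X → Z → Matrix (Fin n) (Fin n) ℂ

/-- every entry has order `e` -/
def OrdM (e : ℕ) (M : MFam Q P Bc Kc C) : Prop :=
  ∀ i j, OrdA e (fun N D α x z => M N D α x z i j)

namespace OrdM

variable {e e' : ℕ} {M M' : MFam Q P Bc Kc C}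

theorem congr (h : OrdM e M) (hM : ∀ N D α x z, M' N D α x z = M N D α x z) : OrdM e M' :=
  fun i j => (h i j).congr fun N D α x z => by rw [hM]

theorem mono (h : OrdM e' M) (he : e ≤ e') : OrdM e M := fun i j => (h i j).mono he

theorem add (h : OrdM e M) (h' : OrdM e M') :
    OrdM e (fun N D α x z => M N D α x z + M' N D α x z) :=
  fun i j => ((h i j).add (h' i j)).congr fun _ _ _ _ _ => rfl

theorem neg (h : OrdM e M) : OrdM e (fun N D α x z => -M N D α x z) :=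
  fun i j => (h i j).neg.congr fun _ _ _ _ _ => rfl

theorem sub (h : OrdM e M) (h' : OrdM e M') :
    OrdM e (fun N D α x z => M N D α x z - M' N D α x z) :=
  (h.add h'.neg).congr fun _ _ _ _ _ => sub_eq_add_neg _ _

theorem mul (h : OrdM e M) (h' : OrdM e' M') :
    OrdM (e + e') (fun N D α x z => M N D α x z * M' N D α x z) :=
  fun i j => (OrdA.sum Finset.univ fun k _ => (h i k).mul (h' k j)).congr
    fun _ _ _ _ _ => Matrix.mul_apply

theorem transpose (h : OrdM e M) : OrdM e (fun N D α x z => (M N D α x z)ᵀ) :=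
  fun i j => h j i

theorem adj (h : OrdM e M) : OrdM e (fun N D α x z => (M N D α x z)ᴴ) :=
  fun i j => (h j i).conj

theorem const (A : Matrix (Fin n) (Fin n) ℂ) :
    OrdM (Q := Q) (P := P) (Bc := Bc) (Kc := Kc) (C := C) 0 (fun _ _ _ _ _ => A) :=
  fun i j => ord_iff.mp ((ord_x (ContinuousMap.const X (A i j))).congr fun _ _ => rfl)

end OrdM

theorem ordQ : OrdM (Q := Q) (P := P) (Bc := Bc) (Kc := Kc) (C := C) 0
    (fun _ _ _ x _ => Q x) :=
  fun i j => ord_iff.mp ((ord_x (en Q i j)).congr fun _ _ => rfl)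

theorem ordP : OrdM (Q := Q) (P := P) (Bc := Bc) (Kc := Kc) (C := C) 0
    (fun _ _ _ _ z => P z) :=
  fun i j => ord_iff.mp ((ord_z (en P i j)).congr fun _ _ => rfl)

theorem ordQ0 : OrdM (Q := Q) (P := P) (Bc := Bc) (Kc := Kc) (C := C) 0
    (fun _ D α _ _ => Q (D.xa α)) := by
  intro i j
  refine OrdA.ofX (a := fun _ D α => ContinuousMap.const X (Q (D.xa α) i j)) ‖en Q i j‖
    (norm_nonneg _) fun N _ D α _ x _ => ?_
  rw [pow_zero, div_one, ContinuousMap.const_apply]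
  exact ContinuousMap.norm_coe_le_norm (en Q i j) (D.xa α)

/-- (A1) -/
theorem ordD (hC : 0 ≤ C) : OrdM (Q := Q) (P := P) (Bc := Bc) (Kc := Kc) (C := C) 1
    (fun _ D α x _ => Q x - Q (D.xa α)) := by
  intro i j
  refine OrdA.ofX (a := fun _ D α => en Q i j - ContinuousMap.const X (Q (D.xa α) i j)) C hC
    fun N _ D α hα x hx => ?_
  rw [pow_one]
  exact D.cl α hα x hx i j

/-- (A2) -/
theorem ordN0 (hC : 0 ≤ C) : OrdM (Q := Q) (P := P) (Bc := Bc) (Kc := Kc) (C := C) 1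
    (fun _ D α _ z => (1 - P z) * Q (D.xa α)) := by
  intro i j
  refine OrdA.ofZ (b := fun _ D α => ⟨fun z => ((1 - P z) * Q (D.xa α)) i j, ?_⟩)
    C hC (fun N _ D α hα z hz => ?_) |>.congr (fun N D α x z => rfl)
  · have h1 : Continuous fun z => (1 - P z) * Q (D.xa α) := by
      have := P.continuous
      fun_prop
    exact (continuous_apply j).comp ((continuous_apply i).comp h1)
  · rw [pow_one]
    exact D.nn α hα z hz i j

/-- **the first order** -/
theorem ordN (hC : 0 ≤ C) : OrdM (Q := Q) (P := P) (Bc := Bc) (Kc := Kc) (C := C) 1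
    (fun _ _ _ x z => (1 - P z) * Q x) := by
  have h1 := (ordN0 (Q := Q) (P := P) (Bc := Bc) (Kc := Kc) hC).add
    ((((OrdM.const (1 : Matrix (Fin n) (Fin n) ℂ)).sub ordP).mul (ordD hC)))
  refine h1.congr fun N D α x z => ?_
  noncomm_ring

/-- **first order entries** -/
theorem ord_n (hC : 0 ≤ C) (i j : Fin n) :
    Ord Q P Bc Kc C 1 (fun x z => ((1 - P z) * Q x) i j) :=
  ord_iff.mpr (ordN hC i j)

/-- the adjoint first order entries -/
theorem ord_n' (hC : 0 ≤ C) (hQh : ∀ x, (Q x)ᴴ = Q x) (hPh : ∀ z, (P z)ᴴ = P z) (i j : Fin n) :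
    Ord Q P Bc Kc C 1 (fun x z => (Q x * (1 - P z)) i j) := by
  refine (ord_n hC j i).conj.congr fun x z => ?_
  have h1 : ((1 - P z) * Q x)ᴴ = Q x * (1 - P z) := by
    rw [Matrix.conjTranspose_mul, hQh, Matrix.conjTranspose_sub, Matrix.conjTranspose_one, hPh]
  rw [← h1]
  rfl

section herm

variable {v : X → Fin n → ℂ} {J : Matrix (Fin n) (Fin n) ℂ}
  (hv : ∀ x, star (v x) ⬝ᵥ v x = 1) (hQ : ∀ x, Q x = vecMulVec (v x) (star (v x)))

include hv hQ in
/-- (A4) -/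
theorem ordB0 (hC : 0 ≤ C) (hPh : ∀ z, (P z)ᴴ = P z) :
    OrdM (Q := Q) (P := P) (Bc := Bh v P J) (Kc := Kc) (C := C) 2
    (fun _ D α _ z => Q (D.xa α) * P z * J * Q (D.xa α)) := by
  intro i j
  refine OrdA.ofZ (b := fun _ D α => ⟨fun z => (Q (D.xa α) * P z * J * Q (D.xa α)) i j, ?_⟩)
    C hC (fun N _ D α hα z hz => ?_) |>.congr (fun N D α x z => rfl)
  · have h1 : Continuous fun z => Q (D.xa α) * P z * J * Q (D.xa α) := by
      have := P.continuous
      fun_prop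
    exact (continuous_apply j).comp ((continuous_apply i).comp h1)
  · have h1 : ‖star (P z *ᵥ v (D.xa α)) ⬝ᵥ (J *ᵥ v (D.xa α))‖ ≤ C / N ^ 2 := D.bb α hα z hz
    have h2 : (Q (D.xa α) * P z * J * Q (D.xa α)) i j =
        v (D.xa α) i * (star (P z *ᵥ v (D.xa α)) ⬝ᵥ (J *ᵥ v (D.xa α))) *
          star (v (D.xa α) j) := by
      rw [hQ, Matrix.mul_assoc (vecMulVec _ _) (P z) J, mat_vmv, ← Matrix.mulVec_mulVec,
        Matrix.dotProduct_mulVec, Matrix.star_mulVec, hPh]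
      rfl
    change ‖(Q (D.xa α) * P z * J * Q (D.xa α)) i j‖ ≤ _
    rw [h2, norm_mul, norm_mul, norm_star]
    have h4 := unit_le (hv (D.xa α)) j
    have h5 := unit_le (hv (D.xa α)) i
    calc ‖v (D.xa α) i‖ * ‖star (P z *ᵥ v (D.xa α)) ⬝ᵥ (J *ᵥ v (D.xa α))‖ * ‖v (D.xa α) j‖
        ≤ 1 * (C / N ^ 2) * 1 := by
          apply mul_le_mul _ h4 (norm_nonneg _) (by positivity)
          exact mul_le_mul h5 h1 (norm_nonneg _) zero_le_one
      _ = C / N ^ 2 := by ring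

include hv hQ in
/-- (A5) -/
theorem ordC0 (hC : 0 ≤ C) :
    OrdM (Q := Q) (P := P) (Bc := Bc) (Kc := Kh v J) (C := C) 2
    (fun _ D α x _ => Q x * J * Q (D.xa α)) := by
  intro i j
  refine OrdA.ofX (a := fun _ D α => ⟨fun x => (Q x * J * Q (D.xa α)) i j, ?_⟩)
    C hC (fun N _ D α hα x hx => ?_) |>.congr (fun N D α x z => rfl)
  · have h1 : Continuous fun x => Q x * J * Q (D.xa α) := by
      have := Q.continuous
      fun_prop
    exact (continuous_apply j).comp ((continuous_apply i).comp h1)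
  · have h1 : ‖star (v x) ⬝ᵥ (J *ᵥ v (D.xa α))‖ ≤ C / N ^ 2 := D.cb α hα x hx
    have h2 : (Q x * J * Q (D.xa α)) i j =
        v x i * (star (v x) ⬝ᵥ (J *ᵥ v (D.xa α))) * star (v (D.xa α) j) := by
      rw [hQ, hQ, mat_vmv]
      rfl
    change ‖(Q x * J * Q (D.xa α)) i j‖ ≤ _
    rw [h2, norm_mul, norm_mul, norm_star]
    have h4 := unit_le (hv x) i
    have h5 := unit_le (hv (D.xa α)) j
    calc ‖v x i‖ * ‖star (v x) ⬝ᵥ (J *ᵥ v (D.xa α))‖ * ‖v (D.xa α) j‖
        ≤ 1 * (C / N ^ 2) * 1 := by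
          apply mul_le_mul _ h5 (norm_nonneg _) (by positivity)
          exact mul_le_mul h4 h1 (norm_nonneg _) zero_le_one
      _ = C / N ^ 2 := by ring

include hv hQ in
/-- **the contact entries have order two** -/
theorem ordB (hC : 0 ≤ C) (hJh : Jᴴ = J) (hPh : ∀ z, (P z)ᴴ = P z)
    (hiso : ∀ x, Q x * J * Q x = 0) (hL : ∀ z, P z * J * P z = 0) :
    OrdM (Q := Q) (P := P) (Bc := Bh v P J) (Kc := Kh v J) (C := C) 2
    (fun _ _ _ x z => Q x * P z * J * Q x) := by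
  have hQh : ∀ x, (Q x)ᴴ = Q x := by
    intro x
    rw [hQ]
    ext a b
    simp [Matrix.conjTranspose_apply, vecMulVec_apply, mul_comm]
  have hN0 := ordN0 (Q := Q) (P := P) (Bc := Bh v P J) (Kc := Kh v J) hC
  have hD := ordD (Q := Q) (P := P) (Bc := Bh v P J) (Kc := Kh v J) hC
  have hJ0 := OrdM.const (Q := Q) (P := P) (Bc := Bh v P J) (Kc := Kh v J) (C := C) J
  have hP0 := ordP (Q := Q) (P := P) (Bc := Bh v P J) (Kc := Kh v J) (C := C)
  have t1 := ordB0 (Q := Q) (P := P) (Kc := Kh v J) (J := J) hv hQ hC hPh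
  have t2 := (ordC0 (Q := Q) (P := P) (Bc := Bh v P J) (J := J) hv hQ hC).adj
  have t3 := (hN0.adj.mul hJ0).mul hD
  have t4 := ((hD.mul hP0).mul hJ0).mul hN0
  have t5 := ((hD.mul hP0).mul hJ0).mul hD
  refine ((((t1.add t2).sub t3).add t4).add t5).congr fun N D α x z => ?_
  have e2 : (Q x * J * Q (D.xa α))ᴴ = Q (D.xa α) * J * Q x := by
    rw [Matrix.conjTranspose_mul, Matrix.conjTranspose_mul, hQh, hQh, hJh, Matrix.mul_assoc]
  have e3 : ((1 - P z) * Q (D.xa α))ᴴ = Q (D.xa α) * (1 - P z) := by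
    rw [Matrix.conjTranspose_mul, hQh, Matrix.conjTranspose_sub, Matrix.conjTranspose_one, hPh]
  have e4 : (Q x - Q (D.xa α)) * P z * J * ((1 - P z) * Q (D.xa α)) =
      (Q x - Q (D.xa α)) * P z * J * Q (D.xa α) := by
    have : P z * J * (1 - P z) = P z * J := by
      rw [Matrix.mul_sub, Matrix.mul_one, hL, sub_zero]
    calc (Q x - Q (D.xa α)) * P z * J * ((1 - P z) * Q (D.xa α)) =
        (Q x - Q (D.xa α)) * (P z * J * (1 - P z)) * Q (D.xa α) := by
          simp only [Matrix.mul_assoc]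
      _ = _ := by rw [this]; simp only [Matrix.mul_assoc]
  have e5 : Q (D.xa α) * (1 - P z) * J * (Q x - Q (D.xa α)) =
      Q (D.xa α) * J * Q x - Q (D.xa α) * P z * J * (Q x - Q (D.xa α)) := by
    have h6 : Q (D.xa α) * (1 - P z) = Q (D.xa α) - Q (D.xa α) * P z := by
      rw [Matrix.mul_sub, Matrix.mul_one]
    have h7 : Q (D.xa α) * J * (Q x - Q (D.xa α)) = Q (D.xa α) * J * Q x := by
      rw [Matrix.mul_sub, hiso, sub_zero]
    rw [h6, Matrix.sub_mul, Matrix.sub_mul, h7]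
  rw [e2, e3, e4, e5]
  noncomm_ring

include hv hQ in
/-- **contact entries** -/
theorem ord_kh (hC : 0 ≤ C) (hJh : Jᴴ = J) (hPh : ∀ z, (P z)ᴴ = P z)
    (hiso : ∀ x, Q x * J * Q x = 0) (hL : ∀ z, P z * J * P z = 0) (i j : Fin n) :
    Ord Q P (Bh v P J) (Kh v J) C 2 (fun x z => (Q x * P z * J * Q x) i j) :=
  ord_iff.mpr (ordB hv hQ hC hJh hPh hiso hL i j)

include hv hQ in
/-- contact entries, adjoint form -/
theorem ord_kh' (hC : 0 ≤ C) (hJh : Jᴴ = J) (hPh : ∀ z, (P z)ᴴ = P z)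
    (hiso : ∀ x, Q x * J * Q x = 0) (hL : ∀ z, P z * J * P z = 0) (i j : Fin n) :
    Ord Q P (Bh v P J) (Kh v J) C 2 (fun x z => (Q x * J * P z * Q x) i j) := by
  refine (ord_kh hv hQ hC hJh hPh hiso hL j i).conj.congr fun x z => ?_
  have hQh : (Q x)ᴴ = Q x := by
    rw [hQ]
    ext a b
    simp [Matrix.conjTranspose_apply, vecMulVec_apply, mul_comm]
  have h1 : (Q x * P z * J * Q x)ᴴ = Q x * J * P z * Q x := by
    rw [Matrix.conjTranspose_mul, Matrix.conjTranspose_mul, Matrix.conjTranspose_mul, hQh, hJh,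
      hPh]
    simp only [Matrix.mul_assoc]
  rw [← h1]
  rfl

end herm

end Vale.Agent.P092.H283.Gn
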