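import Vale.Agent.P092.H283.Gn.K
import Vale.Agent.P092.H283.Car6

/-! # Track H, cells: kill, near, the killed ideal for three letters (generic record) -/

set_option linter.unusedSectionVars false

namespace Vale.Agent.P092.H283.Gn

open Matrix Finset Vale.Agent.P092.H283.Syn
open Vale.Agent.P092.H828.P (UL)
open Vale.Agent.P092.H283.Car (en en_apply step2 op_eq3 fin_id star_cx FT)
open scoped InnerProductSpace

variable {n : ℕ} {X Z : Type*} [TopologicalSpace X] [CompactSpace X] [TopologicalSpace Z]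
  [CompactSpace Z]
  {Q : C(X, Matrix (Fin n) (Fin n) ℂ)}
  {P : C(Z, Matrix (Fin n) (Fin n) ℂ)} {Bc : X → Z → ℝ} {Kc : X → X → ℝ} {C : ℝ}

section kill

variable {K : Type*} [NormedAddCommGroup K] [InnerProductSpace ℂ K] [CompleteSpace K]
  {E : C(X, ℂ) →ₗ[ℂ] (K →L[ℂ] K)} {F : C(Z, ℂ) →ₗ[ℂ] (K →L[ℂ] K)} {p q : ℝ}

/-- **every tensor whose function has order two is killed** -/
theorem Ord.kill' {CA CB : ℝ} (hA0 : 0 ≤ CA) (hB0 : 0 ≤ CB)
    (hEs : ∀ f, E (star f) = star (E f)) (kE : Kad E CA) (kF : Kad F CB)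
    (hC : 0 ≤ C) (hcell : ∃ N₀ : ℕ, ∀ N : ℕ, N₀ ≤ N → Nonempty (CG Q P Bc Kc C N))
    (hI : ∀ (f : C(X, ℂ)) (g : C(Z, ℂ)),
      (∀ x ∈ tsupport f, ∀ z ∈ tsupport g, P z * Q x ≠ Q x) → E f * F g = 0)
    {H : X → Z → ℂ} (hH : Ord Q P Bc Kc C 2 H)
    {ρ : Type} [Fintype ρ] (u : ρ → C(X, ℂ)) (w : ρ → C(Z, ℂ))
    (huw : ∀ x z, ∑ r, u r x * w r z = H x z) (f : C(X, ℂ)) (g : C(Z, ℂ)) :
    ∑ r, E (f * u r) * F (g * w r) = 0 := by
  classical
  obtain ⟨N₀, hcell⟩ := hcell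
  obtain ⟨d, B, hB, hH⟩ := hH
  have key : ∀ N : ℕ, max N₀ 1 ≤ N → ‖∑ r, E (f * u r) * F (g * w r)‖ ≤
      (∑ _j : Fin d, Real.sqrt (CA * (‖f‖ * B) ^ 2 * (CB * (C * (‖g‖ * B) ^ 2)))) * (1 / N) := by
    intro N hN
    obtain ⟨D⟩ := hcell N ((le_max_left _ _).trans hN)
    have hN1 : 1 ≤ N := (le_max_right _ _).trans hN
    have hNpos : (0 : ℝ) < N := by exact_mod_cast hN1
    have hkill : ∀ α ∈ D.s, ∀ (a : C(X, ℂ)) (y : C(Z, ℂ)),
        E (cx (D.φ α) * a) * F (y * (1 - cx (D.ψ α))) = 0 := by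
      intro α hα a y
      apply hI
      intro x hx z hz
      apply D.kill α hα x _ z _
      · refine closure_mono ?_ hx
        intro x hx h0
        apply hx
        simp [h0]
      · refine closure_mono ?_ hz
        intro z hz h0
        apply hz
        have h1 : D.ψ α z = 1 := by
          have : 1 - D.ψ α z = 0 := h0
          linarith
        simp [h1]
    choose! h k h1 h2 h3 using hH N hN1 D
    have hstep := step2 hA0 hB0 hEs kE kF D.s D.φ D.ψ D.φ0 D.φs D.ψ0 D.ψ1 hkill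
      (Cn := C * N ^ 2) (by positivity) D.cnt u w h k
      (fun α hα x z => (huw x z).trans (h1 α hα x z))
      (fun _ => B / N ^ 2) (fun _ => B) (fun _ => hB) (fun α hα j x hx => h2 α hα j x hx)
      (fun α hα j z hz => h3 α hα j z hz) f g
    refine hstep.trans (le_of_eq ?_)
    rw [Finset.sum_mul]
    refine Finset.sum_congr rfl fun j _ => ?_
    have e1 : CA * (‖f‖ * (B / N ^ 2)) ^ 2 * (CB * (C * N ^ 2 * (‖g‖ * B) ^ 2)) =
        (CA * (‖f‖ * B) ^ 2 * (CB * (C * (‖g‖ * B) ^ 2))) * (1 / N) ^ 2 := by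
      field_simp
    rw [e1, Real.sqrt_mul (by positivity), Real.sqrt_sq (by positivity)]
  have hlim : Filter.Tendsto (fun N : ℕ =>
      (∑ _j : Fin d, Real.sqrt (CA * (‖f‖ * B) ^ 2 * (CB * (C * (‖g‖ * B) ^ 2)))) * (1 / (N : ℝ)))
      Filter.atTop (nhds 0) := by
    have h1 := (tendsto_one_div_atTop_nhds_zero_nat (𝕜 := ℝ)).const_mul
      (∑ _j : Fin d, Real.sqrt (CA * (‖f‖ * B) ^ 2 * (CB * (C * (‖g‖ * B) ^ 2))))
    rw [mul_zero] at h1
    exact h1
  have hle : ‖∑ r, E (f * u r) * F (g * w r)‖ ≤ 0 := by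
    apply ge_of_tendsto hlim
    filter_upwards [Filter.eventually_ge_atTop (max N₀ 1)] with N hN
    exact key N hN
  exact norm_le_zero_iff.mp hle

/-- **every tensor whose function has order two is killed**, for two letters `UL` -/
theorem Ord.kill (hp : 0 ≤ p) (hq : 0 ≤ q) (hE : UL E p) (hF : UL F q)
    (hC : 0 ≤ C) (hcell : ∃ N₀ : ℕ, ∀ N : ℕ, N₀ ≤ N → Nonempty (CG Q P Bc Kc C N))
    (hI : ∀ (f : C(X, ℂ)) (g : C(Z, ℂ)),
      (∀ x ∈ tsupport f, ∀ z ∈ tsupport g, P z * Q x ≠ Q x) → E f * F g = 0)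
    {H : X → Z → ℂ} (hH : Ord Q P Bc Kc C 2 H)
    {ρ : Type} [Fintype ρ] (u : ρ → C(X, ℂ)) (w : ρ → C(Z, ℂ))
    (huw : ∀ x z, ∑ r, u r x * w r z = H x z) :
    ∑ r, E (u r) * F (w r) = 0 := by
  have h := Ord.kill' hp hq hE.star (fun _ s v M hM ξ => hE.bes_le s v M hM ξ)
    (fun _ s v M hM ξ => hF.bes_le s v M hM ξ) hC hcell hI hH u w huw 1 1
  simpa using h

end kill


section nearsec

variable {K : Type*} [NormedAddCommGroup K] [InnerProductSpace ℂ K] [CompleteSpace K]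
  {E : C(X, ℂ) →ₗ[ℂ] (K →L[ℂ] K)} {F : C(Z, ℂ) →ₗ[ℂ] (K →L[ℂ] K)} {p q : ℝ}

theorem cut_l
    (hI : ∀ (f : C(X, ℂ)) (g : C(Z, ℂ)),
      (∀ x ∈ tsupport f, ∀ z ∈ tsupport g, P z * Q x ≠ Q x) → E f * F g = 0)
    {N : ℕ} (D : CG Q P Bc Kc C N) {α : D.ι} (hα : α ∈ D.s) (a : C(X, ℂ)) (y : C(Z, ℂ)) :
    E (cx (D.φ α) * a) * F y = E (cx (D.φ α) * a) * F (y * cx (D.ψ α)) := by
  have h0 : E (cx (D.φ α) * a) * F (y * (1 - cx (D.ψ α))) = 0 := by
    apply hI
    intro x hx z hz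
    apply D.kill α hα x _ z _
    · refine closure_mono ?_ hx
      intro x hx h0
      apply hx
      simp [h0]
    · refine closure_mono ?_ hz
      intro z hz h0
      apply hz
      have h1 : D.ψ α z = 1 := by
        have : 1 - D.ψ α z = 0 := h0
        linarith
      simp [h1]
  have h2 : F y = F (y * cx (D.ψ α)) + F (y * (1 - cx (D.ψ α))) := by
    rw [← map_add]
    congr 1
    ring
  rw [h2, mul_add, h0, add_zero]

theorem cut_r (hE : UL E p) (hF : UL F q)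
    (hI : ∀ (f : C(X, ℂ)) (g : C(Z, ℂ)),
      (∀ x ∈ tsupport f, ∀ z ∈ tsupport g, P z * Q x ≠ Q x) → E f * F g = 0)
    {N : ℕ} (D : CG Q P Bc Kc C N) {α : D.ι} (hα : α ∈ D.s) (a : C(X, ℂ)) (y : C(Z, ℂ)) :
    F y * E (cx (D.φ α) * a) = F (y * cx (D.ψ α)) * E (cx (D.φ α) * a) := by
  have h := congrArg star (cut_l hI D hα (star a) (star y))
  rw [star_mul, star_mul, ← hE.star, ← hF.star, ← hF.star] at h
  simp only [star_mul, star_star, star_cx] at h
  rw [mul_comm a, mul_comm (cx (D.ψ α))] at h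
  exact h

/-- **the near-diagonal bound** -/
theorem near (hp : 0 ≤ p) (hq : 0 ≤ q) (hE : UL E p) (hF : UL F q) (hC : 0 ≤ C)
    (hI : ∀ (f : C(X, ℂ)) (g : C(Z, ℂ)),
      (∀ x ∈ tsupport f, ∀ z ∈ tsupport g, P z * Q x ≠ Q x) → E f * F g = 0)
    {H H' : X → Z → ℂ} (hH : Ord Q P Bc Kc C 1 H) (hH' : Ord Q P Bc Kc C 1 H') (f f' : C(X, ℂ))
    {ρ σ : Type} [Fintype ρ] [Fintype σ] (u : ρ → C(X, ℂ)) (w : ρ → C(Z, ℂ))
    (u' : σ → C(X, ℂ)) (w' : σ → C(Z, ℂ)) (hu : ∀ x z, ∑ r, u r x * w r z = H x z)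
    (hu' : ∀ x z, ∑ t, u' t x * w' t z = H' x z) :
    ∃ C' : ℝ, 0 ≤ C' ∧ ∀ N : ℕ, 1 ≤ N → ∀ D : CG Q P Bc Kc C N, ∀ δ : ℝ, 1 / (N : ℝ) ≤ δ → δ ≤ 1 →
      ∀ (R : D.ι → D.ι → Prop) [DecidableRel R],
      (∀ α β, R α β → ∀ i j, ‖Q (D.xa β) i j - Q (D.xa α) i j‖ ≤ δ) → ∀ ζ : K,
      ‖∑ α ∈ D.s, ∑ β ∈ D.s, if R α β then ∑ r, ∑ t, ⟪ζ, (E (cx (D.φ α) * (f * u r)) *
        F (w r * w' t) * E (cx (D.φ β) * (f' * u' t))) ζ⟫_ℂ else 0‖ ≤ C' * δ ^ 2 * ‖ζ‖ ^ 2 := by
  classical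
  obtain ⟨d, B, hB, hH⟩ := hH
  obtain ⟨d', B', hB', hH'⟩ := hH'
  refine ⟨∑ _i : Fin d, ∑ _j : Fin d', 4 * (q * (B * B' * C) * (p * (‖f‖ * B) * (‖f'‖ * B'))),
    by positivity, ?_⟩
  intro N hN D δ hδ1 hδ2 R _ hR ζ
  have hNpos : (0 : ℝ) < N := by exact_mod_cast hN
  have hδ0 : 0 ≤ δ := le_trans (by positivity) hδ1
  choose! h k h1 h2 h3 using hH N hN D
  choose! h' k' h1' h2' h3' using hH' N hN D
  let za : Fin d → D.ι → K := fun i α => E (star (cx (D.φ α) * (f * h α i))) ζ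
  let eb : Fin d' → D.ι → K := fun j β => E (cx (D.φ β) * (f' * h' β j)) ζ
  let m : Fin d → Fin d' → D.ι → D.ι → C(Z, ℂ) := fun i j α β =>
    if R α β then (k α i * k' β j) * cx (D.ψ α) * cx (D.ψ β) else 0
  -- the identity on every pair of cells
  have hpair : ∀ α ∈ D.s, ∀ β ∈ D.s,
      (if R α β then ∑ r, ∑ t, ⟪ζ, (E (cx (D.φ α) * (f * u r)) *
        F (w r * w' t) * E (cx (D.φ β) * (f' * u' t))) ζ⟫_ℂ else 0) =
      ∑ i, ∑ j, ⟪za i α, F (m i j α β) (eb j β)⟫_ℂ := by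
    intro α hα β hβ
    by_cases hr : R α β
    · rw [if_pos hr]
      have e1 : ∑ x : ρ × σ, E (cx (D.φ α) * (f * u x.1)) * F (w x.1 * w' x.2) *
          E (cx (D.φ β) * (f' * u' x.2)) =
          ∑ x : Fin d × Fin d', E (cx (D.φ α) * (f * h α x.1)) * F (k α x.1 * k' β x.2) *
          E (cx (D.φ β) * (f' * h' β x.2)) := by
        apply op_eq3
        intro x z x'
        have e2 : ∀ y : ρ × σ, (cx (D.φ α) * (f * u y.1)) x * (w y.1 * w' y.2) z *
            (cx (D.φ β) * (f' * u' y.2)) x' =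
            (cx (D.φ α) x * f x * (cx (D.φ β) x' * f' x')) *
              ((u y.1 x * w y.1 z) * (u' y.2 x' * w' y.2 z)) := by
          intro y
          simp only [ContinuousMap.mul_apply]
          ring
        have e3 : ∀ y : Fin d × Fin d', (cx (D.φ α) * (f * h α y.1)) x *
            (k α y.1 * k' β y.2) z * (cx (D.φ β) * (f' * h' β y.2)) x' =
            (cx (D.φ α) x * f x * (cx (D.φ β) x' * f' x')) *
              ((h α y.1 x * k α y.1 z) * (h' β y.2 x' * k' β y.2 z)) := by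
          intro y
          simp only [ContinuousMap.mul_apply]
          ring
        rw [Finset.sum_congr rfl (fun y _ => e2 y), Finset.sum_congr rfl (fun y _ => e3 y),
          ← Finset.mul_sum, ← Finset.mul_sum, Fintype.sum_prod_type, Fintype.sum_prod_type]
        congr 1
        simp only
        rw [← Finset.sum_mul_sum, ← Finset.sum_mul_sum, hu x z, hu' x' z, ← h1 α hα x z,
          ← h1' β hβ x' z]
      have e4 : ∑ r, ∑ t, ⟪ζ, (E (cx (D.φ α) * (f * u r)) *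
          F (w r * w' t) * E (cx (D.φ β) * (f' * u' t))) ζ⟫_ℂ =
          ⟪ζ, (∑ x : ρ × σ, E (cx (D.φ α) * (f * u x.1)) * F (w x.1 * w' x.2) *
          E (cx (D.φ β) * (f' * u' x.2))) ζ⟫_ℂ := by
        rw [_root_.sum_apply, inner_sum, Fintype.sum_prod_type]
      rw [e4, e1, _root_.sum_apply, inner_sum, Fintype.sum_prod_type]
      refine Finset.sum_congr rfl fun i _ => Finset.sum_congr rfl fun j _ => ?_
      simp only [za, eb, m, if_pos hr]
      rw [cut_l hI D hα, mul_assoc, cut_r hE hF hI D hβ]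
      simp only [mul_apply_eq_comp]
      rw [← ContinuousLinearMap.adjoint_inner_left, ← ContinuousLinearMap.star_eq_adjoint,
        ← hE.star]
    · rw [if_neg hr]
      symm
      apply Finset.sum_eq_zero
      intro i _
      apply Finset.sum_eq_zero
      intro j _
      simp only [m, if_neg hr, map_zero]
      simp
  -- bound of the kernel
  set M : ℝ := B * B' * (C * (δ * N) ^ 2) with hM
  have hM0 : 0 ≤ M := by positivity
  have hcut : ∀ (α : D.ι) (z : Z), ‖cx (D.ψ α) z‖ ≤ 1 := by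
    intro α z
    rw [cx_apply, Complex.norm_real, Real.norm_eq_abs, abs_of_nonneg (D.ψ0 α z)]
    exact D.ψ1 α z
  have hmz : ∀ i j, ∀ α ∈ D.s, ∀ β ∈ D.s, ∀ z, ‖m i j α β z‖ ≤ B * B' := by
    intro i j α hα β hβ z
    by_cases hr : R α β
    · simp only [m, if_pos hr, ContinuousMap.mul_apply, norm_mul]
      by_cases ha : D.ψ α z = 0
      · simp only [cx_apply, ha, Complex.ofReal_zero, norm_zero, mul_zero, zero_mul]
        positivity
      by_cases hb : D.ψ β z = 0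
      · simp only [cx_apply, hb, Complex.ofReal_zero, norm_zero, mul_zero]
        positivity
      have a1 := h3 α hα i z ha
      have a2 := h3' β hβ j z hb
      calc ‖k α i z‖ * ‖k' β j z‖ * ‖cx (D.ψ α) z‖ * ‖cx (D.ψ β) z‖
          ≤ (B * B') * 1 * 1 := by
            apply mul_le_mul _ (hcut β z) (norm_nonneg _) (by positivity)
            apply mul_le_mul _ (hcut α z) (norm_nonneg _) (by positivity)
            exact mul_le_mul a1 a2 (norm_nonneg _) hB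
        _ = B * B' := by ring
    · simp only [m, if_neg hr]
      simpa using mul_nonneg hB hB'
  have hm0 : ∀ i j α β z, m i j α β z ≠ 0 → R α β ∧ D.ψ α z ≠ 0 ∧ D.ψ β z ≠ 0 := by
    intro i j α β z hne
    by_cases hr : R α β
    · refine ⟨hr, fun h0 => hne ?_, fun h0 => hne ?_⟩
      · simp only [m, if_pos hr, ContinuousMap.mul_apply, cx_apply, h0, Complex.ofReal_zero,
          mul_zero, zero_mul]
      · simp only [m, if_pos hr, ContinuousMap.mul_apply, cx_apply, h0, Complex.ofReal_zero,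
          mul_zero]
    · exfalso
      apply hne
      simp only [m, if_neg hr, ContinuousMap.zero_apply]
  have hrow : ∀ i j, ∀ z, ∀ α ∈ D.s, ∑ β ∈ D.s, ‖m i j α β z‖ ≤ M := by
    intro i j z α hα
    by_cases ha : D.ψ α z = 0
    · rw [Finset.sum_eq_zero]
      · exact hM0
      · intro β _
        rw [norm_eq_zero]
        by_contra hne
        exact (hm0 i j α β z hne).2.1 ha
    set t := D.s.filter (fun β => m i j α β z ≠ 0) with ht
    have e1 : ∑ β ∈ D.s, ‖m i j α β z‖ = ∑ β ∈ t, ‖m i j α β z‖ := by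
      symm
      apply Finset.sum_filter_of_ne
      intro β _ hne h0
      exact hne (by rw [h0, norm_zero])
    rw [e1]
    have hcard : (t.card : ℝ) ≤ C * (δ * N) ^ 2 := by
      refine D.loc z α hα ha δ hδ1 hδ2 t (Finset.filter_subset _ _) ?_
      intro β hβ
      obtain ⟨hr, -, hb⟩ := hm0 i j α β z (Finset.mem_filter.mp hβ).2
      exact ⟨hb, hR α β hr⟩
    calc ∑ β ∈ t, ‖m i j α β z‖ ≤ ∑ _β ∈ t, B * B' :=
          Finset.sum_le_sum fun β hβ => hmz i j α hα β (Finset.mem_filter.mp hβ).1 z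
      _ = (t.card : ℝ) * (B * B') := by rw [Finset.sum_const, nsmul_eq_mul]
      _ ≤ (C * (δ * N) ^ 2) * (B * B') := mul_le_mul_of_nonneg_right hcard (by positivity)
      _ = M := by rw [hM]; ring
  have hcol : ∀ i j, ∀ z, ∀ β ∈ D.s, ∑ α ∈ D.s, ‖m i j α β z‖ ≤ M := by
    intro i j z β hβ
    by_cases hb : D.ψ β z = 0
    · rw [Finset.sum_eq_zero]
      · exact hM0
      · intro α _
        rw [norm_eq_zero]
        by_contra hne
        exact (hm0 i j α β z hne).2.2 hb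
    set t := D.s.filter (fun α => m i j α β z ≠ 0) with ht
    have e1 : ∑ α ∈ D.s, ‖m i j α β z‖ = ∑ α ∈ t, ‖m i j α β z‖ := by
      symm
      apply Finset.sum_filter_of_ne
      intro α _ hne h0
      exact hne (by rw [h0, norm_zero])
    rw [e1]
    have hcard : (t.card : ℝ) ≤ C * (δ * N) ^ 2 := by
      refine D.loc z β hβ hb δ hδ1 hδ2 t (Finset.filter_subset _ _) ?_
      intro α hα
      obtain ⟨hr, ha, -⟩ := hm0 i j α β z (Finset.mem_filter.mp hα).2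
      refine ⟨ha, fun i j => ?_⟩
      rw [norm_sub_rev]
      exact hR α β hr i j
    calc ∑ α ∈ t, ‖m i j α β z‖ ≤ ∑ _α ∈ t, B * B' :=
          Finset.sum_le_sum fun α hα => hmz i j α (Finset.mem_filter.mp hα).1 β hβ z
      _ = (t.card : ℝ) * (B * B') := by rw [Finset.sum_const, nsmul_eq_mul]
      _ ≤ (C * (δ * N) ^ 2) * (B * B') := mul_le_mul_of_nonneg_right hcard (by positivity)
      _ = M := by rw [hM]; ring
  -- Bessel
  have hφ1 : ∀ α ∈ D.s, ∀ x, D.φ α x ≤ 1 := by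
    intro α hα x
    rw [← D.φs x]
    exact Finset.single_le_sum (f := fun α => D.φ α x) (fun α _ => D.φ0 α x) hα
  have hbes : ∀ (g : C(X, ℂ)) (a : D.ι → C(X, ℂ)) (b : ℝ), 0 ≤ b →
      (∀ α ∈ D.s, ∀ x, D.φ α x ≠ 0 → ‖a α x‖ ≤ b) → ∀ x,
      ∑ α ∈ D.s, ‖(cx (D.φ α) * (g * a α)) x‖ ^ 2 ≤ (‖g‖ * b) ^ 2 := by
    intro g a b hb ha x
    calc ∑ α ∈ D.s, ‖(cx (D.φ α) * (g * a α)) x‖ ^ 2
        ≤ ∑ α ∈ D.s, (‖g‖ * b) ^ 2 * D.φ α x := by
          apply Finset.sum_le_sum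
          intro α hα
          have h0 := D.φ0 α x
          by_cases hx : D.φ α x = 0
          · simp [hx]
          have h3 : ‖(cx (D.φ α) * (g * a α)) x‖ ≤ (‖g‖ * b) * D.φ α x := by
            simp only [ContinuousMap.mul_apply, cx_apply, norm_mul, Complex.norm_real,
              Real.norm_eq_abs, abs_of_nonneg h0]
            rw [mul_comm]
            apply mul_le_mul_of_nonneg_right _ h0
            exact mul_le_mul (ContinuousMap.norm_coe_le_norm g x) (ha α hα x hx)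
              (norm_nonneg _) (norm_nonneg _)
          calc ‖(cx (D.φ α) * (g * a α)) x‖ ^ 2 ≤ ((‖g‖ * b) * D.φ α x) ^ 2 :=
                pow_le_pow_left₀ (norm_nonneg _) h3 2
            _ = (‖g‖ * b) ^ 2 * (D.φ α x * D.φ α x) := by ring
            _ ≤ (‖g‖ * b) ^ 2 * (D.φ α x * 1) := by
                apply mul_le_mul_of_nonneg_left _ (sq_nonneg _)
                exact mul_le_mul_of_nonneg_left (hφ1 α hα x) h0
            _ = (‖g‖ * b) ^ 2 * D.φ α x := by ring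
      _ = (‖g‖ * b) ^ 2 := by rw [← Finset.mul_sum, D.φs, mul_one]
  have hza : ∀ i, ∑ α ∈ D.s, ‖za i α‖ ^ 2 ≤ p * (‖f‖ * (B / N)) ^ 2 * ‖ζ‖ ^ 2 := by
    intro i
    apply hE.bes_le D.s (fun α => star (cx (D.φ α) * (f * h α i)))
    intro x
    have := hbes f (fun α => h α i) (B / N) (by positivity) (fun α hα x hx => by
      simpa using h2 α hα i x hx) x
    simpa only [ContinuousMap.star_apply, norm_star] using this
  have heb : ∀ j, ∑ β ∈ D.s, ‖eb j β‖ ^ 2 ≤ p * (‖f'‖ * (B' / N)) ^ 2 * ‖ζ‖ ^ 2 := by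
    intro j
    apply hE.bes_le D.s (fun β => cx (D.φ β) * (f' * h' β j))
    intro x
    exact hbes f' (fun β => h' β j) (B' / N) (by positivity) (fun β hβ x hx => by
      simpa using h2' β hβ j x hx) x
  -- conclusion
  have hswap : ∑ α ∈ D.s, ∑ β ∈ D.s, (if R α β then ∑ r, ∑ t, ⟪ζ, (E (cx (D.φ α) * (f * u r)) *
        F (w r * w' t) * E (cx (D.φ β) * (f' * u' t))) ζ⟫_ℂ else 0) =
      ∑ i, ∑ j, ∑ α ∈ D.s, ∑ β ∈ D.s, ⟪za i α, F (m i j α β) (eb j β)⟫_ℂ := by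
    calc _ = ∑ α ∈ D.s, ∑ β ∈ D.s, ∑ i, ∑ j, ⟪za i α, F (m i j α β) (eb j β)⟫_ℂ :=
          Finset.sum_congr rfl fun α hα => Finset.sum_congr rfl fun β hβ => hpair α hα β hβ
      _ = ∑ α ∈ D.s, ∑ i, ∑ β ∈ D.s, ∑ j, ⟪za i α, F (m i j α β) (eb j β)⟫_ℂ :=
          Finset.sum_congr rfl fun α _ => Finset.sum_comm
      _ = ∑ i, ∑ α ∈ D.s, ∑ β ∈ D.s, ∑ j, ⟪za i α, F (m i j α β) (eb j β)⟫_ℂ := Finset.sum_comm
      _ = ∑ i, ∑ α ∈ D.s, ∑ j, ∑ β ∈ D.s, ⟪za i α, F (m i j α β) (eb j β)⟫_ℂ :=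
          Finset.sum_congr rfl fun i _ => Finset.sum_congr rfl fun α _ => Finset.sum_comm
      _ = _ := Finset.sum_congr rfl fun i _ => Finset.sum_comm
  rw [hswap]
  refine (norm_sum_le _ _).trans ?_
  rw [Finset.sum_mul, Finset.sum_mul]
  refine Finset.sum_le_sum fun i _ => (norm_sum_le _ _).trans ?_
  rw [Finset.sum_mul, Finset.sum_mul]
  refine Finset.sum_le_sum fun j _ => ?_
  refine (Vale.Agent.P092.H378.C.schur D.s D.s hF hq (m i j) hM0 (hrow i j) (hcol i j)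
    (za i) (eb j)).trans ?_
  have g1 : Real.sqrt (∑ α ∈ D.s, ‖za i α‖ ^ 2) ≤ Real.sqrt p * (‖f‖ * (B / N)) * ‖ζ‖ := by
    rw [← Real.sqrt_sq (show (0 : ℝ) ≤ ‖f‖ * (B / N) by positivity),
      ← Real.sqrt_sq (norm_nonneg ζ), ← Real.sqrt_mul hp, ← Real.sqrt_mul (by positivity)]
    exact Real.sqrt_le_sqrt (hza i)
  have g2 : Real.sqrt (∑ β ∈ D.s, ‖eb j β‖ ^ 2) ≤ Real.sqrt p * (‖f'‖ * (B' / N)) * ‖ζ‖ := by
    rw [← Real.sqrt_sq (show (0 : ℝ) ≤ ‖f'‖ * (B' / N) by positivity),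
      ← Real.sqrt_sq (norm_nonneg ζ), ← Real.sqrt_mul hp, ← Real.sqrt_mul (by positivity)]
    exact Real.sqrt_le_sqrt (heb j)
  have g3 : Real.sqrt p * Real.sqrt p = p := Real.mul_self_sqrt hp
  calc 4 * (q * M * (Real.sqrt (∑ α ∈ D.s, ‖za i α‖ ^ 2) * Real.sqrt (∑ β ∈ D.s, ‖eb j β‖ ^ 2)))
      ≤ 4 * (q * M * ((Real.sqrt p * (‖f‖ * (B / N)) * ‖ζ‖) *
          (Real.sqrt p * (‖f'‖ * (B' / N)) * ‖ζ‖))) := by
        gcongr
    _ = 4 * (q * M * ((Real.sqrt p * Real.sqrt p) * (‖f‖ * (B / N)) * (‖f'‖ * (B' / N)) *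
          ‖ζ‖ ^ 2)) := by ring
    _ = 4 * (q * (B * B' * C) * (p * (‖f‖ * B) * (‖f'‖ * B'))) * δ ^ 2 * ‖ζ‖ ^ 2 := by
        rw [g3, hM]
        exact fin_id q B B' C p ‖f‖ ‖f'‖ δ ‖ζ‖ N hNpos


end nearsec

/-- a function with an order is a finite tensor -/
theorem Ord.tensor {e : ℕ} {H : X → Z → ℂ} (hH : Ord Q P Bc Kc C e H) [Nonempty X]
    (hcell : ∃ N₀ : ℕ, ∀ N : ℕ, N₀ ≤ N → Nonempty (CG Q P Bc Kc C N)) :
    ∃ (d : ℕ) (h : Fin d → C(X, ℂ)) (k : Fin d → C(Z, ℂ)),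
      ∀ x z, ∑ j, h j x * k j z = H x z := by
  obtain ⟨N₀, hcell⟩ := hcell
  obtain ⟨D⟩ := hcell (max N₀ 1) (le_max_left _ _)
  obtain ⟨d, B, hB, hH⟩ := hH
  obtain ⟨α, hα⟩ : D.s.Nonempty := by
    rw [Finset.nonempty_iff_ne_empty]
    intro h0
    have := D.φs (Classical.arbitrary X)
    rw [h0] at this
    simp at this
  obtain ⟨h, k, h1, -, -⟩ := hH (max N₀ 1) (le_max_right _ _) D α hα
  exact ⟨d, h, k, fun x z => (h1 x z).symm⟩

/-- the killed ideal of functions of `(x, z, x')`: sums of (order two in `(x, z)`) times a function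
of `x'` and of a function of `x` times (order two in `(x', z)`) -/
def KI (Q : C(X, Matrix (Fin n) (Fin n) ℂ))
    (P : C(Z, Matrix (Fin n) (Fin n) ℂ)) (Bc : X → Z → ℝ) (Kc : X → X → ℝ) (C : ℝ)
    (G : X → Z → X → ℂ) : Prop :=
  ∃ (d : ℕ) (A A' : Fin d → X → Z → ℂ) (c c' : Fin d → C(X, ℂ)),
    (∀ s, Ord Q P Bc Kc C 2 (A s)) ∧ (∀ s, Ord Q P Bc Kc C 2 (A' s)) ∧
      ∀ x z x', G x z x' = ∑ s, (A s x z * c s x' + c' s x * A' s x' z)

namespace KI

variable {G G' : X → Z → X → ℂ}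

theorem congr (h : KI Q P Bc Kc C G) (hG : ∀ x z x', G' x z x' = G x z x') : KI Q P Bc Kc C G' := by
  obtain ⟨d, A, A', c, c', h1, h2, h3⟩ := h
  exact ⟨d, A, A', c, c', h1, h2, fun x z x' => (hG x z x').trans (h3 x z x')⟩

theorem of_l {A : X → Z → ℂ} (h : Ord Q P Bc Kc C 2 A) (c : C(X, ℂ)) :
    KI Q P Bc Kc C (fun x z x' => A x z * c x') :=
  ⟨1, fun _ => A, fun _ _ _ => 0, fun _ => c, fun _ => 0, fun _ => h, fun _ => Ord.zero,
    fun x z x' => by simp⟩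

theorem of_r {A : X → Z → ℂ} (h : Ord Q P Bc Kc C 2 A) (c : C(X, ℂ)) :
    KI Q P Bc Kc C (fun x z x' => c x * A x' z) :=
  ⟨1, fun _ _ _ => 0, fun _ => A, fun _ => 0, fun _ => c, fun _ => Ord.zero, fun _ => h,
    fun x z x' => by simp⟩

theorem zero : KI Q P Bc Kc C (fun _ _ _ => 0) :=
  ⟨0, Fin.elim0, Fin.elim0, Fin.elim0, Fin.elim0, fun s => s.elim0, fun s => s.elim0,
    fun x z x' => by simp⟩

theorem add (h : KI Q P Bc Kc C G) (h' : KI Q P Bc Kc C G') :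
    KI Q P Bc Kc C (fun x z x' => G x z x' + G' x z x') := by
  obtain ⟨d, A, A', c, c', h1, h2, h3⟩ := h
  obtain ⟨e, B, B', b, b', k1, k2, k3⟩ := h'
  refine ⟨d + e, Fin.append A B, Fin.append A' B', Fin.append c b, Fin.append c' b', ?_, ?_, ?_⟩
  · intro s
    refine Fin.addCases (fun i => ?_) (fun i => ?_) s
    · rw [Fin.append_left]; exact h1 i
    · rw [Fin.append_right]; exact k1 i
  · intro s
    refine Fin.addCases (fun i => ?_) (fun i => ?_) s
    · rw [Fin.append_left]; exact h2 i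
    · rw [Fin.append_right]; exact k2 i
  · intro x z x'
    rw [Fin.sum_univ_add]
    simp only [Fin.append_left, Fin.append_right]
    rw [h3, k3]

theorem sum {τ : Type*} (t : Finset τ) {G : τ → X → Z → X → ℂ}
    (h : ∀ i ∈ t, KI Q P Bc Kc C (G i)) : KI Q P Bc Kc C (fun x z x' => ∑ i ∈ t, G i x z x') := by
  classical
  induction t using Finset.induction_on with
  | empty => simpa using (zero (Q := Q) (P := P) (Bc := Bc) (Kc := Kc) (C := C))
  | insert a t ha ih =>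
    have h1 := (h a (Finset.mem_insert_self a t)).add
      (ih fun i hi => h i (Finset.mem_insert_of_mem hi))
    exact h1.congr fun x z x' => Finset.sum_insert ha

/-- multiplication by functions of `x`, of `z` and of `x'` -/
theorem mulx (h : KI Q P Bc Kc C G) (a : C(X, ℂ)) (b : C(Z, ℂ)) (a' : C(X, ℂ)) :
    KI Q P Bc Kc C (fun x z x' => a x * b z * a' x' * G x z x') := by
  obtain ⟨d, A, A', c, c', h1, h2, h3⟩ := h
  refine ⟨d, fun s x z => a x * b z * A s x z, fun s x z => a' x * b z * A' s x z,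
    fun s => a' * c s, fun s => a * c' s, fun s => ?_, fun s => ?_, fun x z x' => ?_⟩
  · have := ((ord_x (Q := Q) (P := P) (Bc := Bc) (Kc := Kc) (C := C) a).mul (ord_z b)).mul (h1 s)
    exact this
  · have := ((ord_x (Q := Q) (P := P) (Bc := Bc) (Kc := Kc) (C := C) a').mul (ord_z b)).mul (h2 s)
    exact this
  · change a x * b z * a' x' * G x z x' = _
    rw [h3, Finset.mul_sum]
    refine Finset.sum_congr rfl fun s _ => ?_
    simp only [ContinuousMap.mul_apply]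
    ring

theorem neg (h : KI Q P Bc Kc C G) : KI Q P Bc Kc C (fun x z x' => -G x z x') :=
  (h.mulx (-1) 1 1).congr fun x z x' => by simp

theorem sub (h : KI Q P Bc Kc C G) (h' : KI Q P Bc Kc C G') :
    KI Q P Bc Kc C (fun x z x' => G x z x' - G' x z x') :=
  (h.add h'.neg).congr fun x z x' => sub_eq_add_neg _ _

theorem smul (h : KI Q P Bc Kc C G) (r : ℂ) : KI Q P Bc Kc C (fun x z x' => r * G x z x') :=
  (h.mulx (ContinuousMap.const X r) 1 1).congr fun x z x' => by simp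

end KI

/-- **the killed functions are an ideal of the finite tensors** -/
theorem KI.mul_ft {T G : X → Z → X → ℂ} (hT : FT T) (h : KI Q P Bc Kc C G) :
    KI Q P Bc Kc C (fun x z x' => T x z x' * G x z x') := by
  obtain ⟨d, u, w, u', hT⟩ := hT
  refine (KI.sum Finset.univ (G := fun r x z x' => u r x * w r z * u' r x' * G x z x')
    fun r _ => h.mulx (u r) (w r) (u' r)).congr fun x z x' => ?_
  rw [hT, Finset.sum_mul]

section kill3

variable {K : Type*} [NormedAddCommGroup K] [InnerProductSpace ℂ K] [CompleteSpace K]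
  {E E' : C(X, ℂ) →ₗ[ℂ] (K →L[ℂ] K)} {F : C(Z, ℂ) →ₗ[ℂ] (K →L[ℂ] K)} {p p' q : ℝ}

/-- **the killed ideal is killed** -/
theorem KI.kill (hp : 0 ≤ p) (hp' : 0 ≤ p') (hq : 0 ≤ q) (hE : UL E p) (hE' : UL E' p')
    (hF : UL F q) (hC : 0 ≤ C)
    (hcell : ∃ N₀ : ℕ, ∀ N : ℕ, N₀ ≤ N → Nonempty (CG Q P Bc Kc C N))
    (hI : ∀ (f : C(X, ℂ)) (g : C(Z, ℂ)),
      (∀ x ∈ tsupport f, ∀ z ∈ tsupport g, P z * Q x ≠ Q x) → E f * F g = 0)
    (hI' : ∀ (f : C(X, ℂ)) (g : C(Z, ℂ)),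
      (∀ x ∈ tsupport f, ∀ z ∈ tsupport g, P z * Q x ≠ Q x) → E' f * F g = 0)
    {G : X → Z → X → ℂ} (hG : KI Q P Bc Kc C G)
    {ρ : Type*} [Fintype ρ] (u : ρ → C(X, ℂ)) (w : ρ → C(Z, ℂ)) (u' : ρ → C(X, ℂ))
    (hu : ∀ x z x', ∑ r, u r x * w r z * u' r x' = G x z x') :
    ∑ r, E (u r) * F (w r) * E' (u' r) = 0 := by
  rcases isEmpty_or_nonempty X with hX | hX
  · apply Finset.sum_eq_zero
    intro r _
    have : u r = 0 := by ext x; exact hX.elim x
    rw [this, map_zero, zero_mul, zero_mul]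
  obtain ⟨d, A, A', c, c', h1, h2, h3⟩ := hG
  choose m h k hk using fun s => (h1 s).tensor hcell
  choose m' h' k' hk' using fun s => (h2 s).tensor hcell
  have key := op_eq3 E F E' u w u'
    (Sum.elim (fun y : (s : Fin d) × Fin (m s) => h y.1 y.2)
      (fun y : (s : Fin d) × Fin (m' s) => c' y.1))
    (Sum.elim (fun y : (s : Fin d) × Fin (m s) => k y.1 y.2)
      (fun y : (s : Fin d) × Fin (m' s) => k' y.1 y.2))
    (Sum.elim (fun y : (s : Fin d) × Fin (m s) => c y.1)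
      (fun y : (s : Fin d) × Fin (m' s) => h' y.1 y.2)) (by
    intro x z x'
    rw [hu, h3, Fintype.sum_sum_type, Finset.sum_add_distrib]
    simp only [Sum.elim_inl, Sum.elim_inr]
    rw [Fintype.sum_sigma, Fintype.sum_sigma]
    congr 1
    · refine Finset.sum_congr rfl fun s _ => ?_
      rw [← hk s x z, Finset.sum_mul]
    · refine Finset.sum_congr rfl fun s _ => ?_
      rw [← hk' s x' z, Finset.mul_sum]
      exact Finset.sum_congr rfl fun j _ => by ring)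
  rw [key, Fintype.sum_sum_type]
  simp only [Sum.elim_inl, Sum.elim_inr]
  rw [Fintype.sum_sigma, Fintype.sum_sigma]
  have e1 : ∀ s, ∑ j, E (h s j) * F (k s j) = 0 := fun s =>
    Ord.kill hp hq hE hF hC hcell hI (h1 s) (h s) (k s) (hk s)
  have e2 : ∀ s, ∑ j, F (k' s j) * E' (h' s j) = 0 := by
    intro s
    have e3 := Ord.kill hp' hq hE' hF hC hcell hI' (h2 s).conj (fun j => star (h' s j))
      (fun j => star (k' s j)) (by
        intro x z
        rw [← hk' s x z, star_sum]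
        refine Finset.sum_congr rfl fun j _ => ?_
        rw [ContinuousMap.star_apply, ContinuousMap.star_apply, star_mul, mul_comm])
    have e4 := congrArg star e3
    rw [star_sum, star_zero] at e4
    rw [← e4]
    refine Finset.sum_congr rfl fun j _ => ?_
    rw [star_mul, ← hE'.star, ← hF.star, star_star, star_star]
  have e5 : ∑ s, ∑ j, E (h s j) * F (k s j) * E' (c s) = 0 := by
    apply Finset.sum_eq_zero
    intro s _
    rw [← Finset.sum_mul, e1 s, zero_mul]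
  have e6 : ∑ s, ∑ j, E (c' s) * F (k' s j) * E' (h' s j) = 0 := by
    apply Finset.sum_eq_zero
    intro s _
    simp only [mul_assoc]
    rw [← Finset.mul_sum, e2 s, mul_zero]
  rw [e5, e6, add_zero]

end kill3

end Vale.Agent.P092.H283.Gn
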